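import Vale.Agent.P032.Words.H670.P1
import Vale.Agent.P032.Words.H670.P2
import Vale.Agent.P032.Words.H670.P3
import Vale.Agent.P032.Words.H670.P4
import Vale.Agent.P032.Words.H670.P5
import Vale.Agent.P032.Words.H670.P6
import Vale.Agent.P032.Words.H670.P7
import Vale.Agent.P032.Words.H670.P8
import Vale.Agent.P032.Words.H670.P9
import Vale.Agent.P032.Words.H670.P10
import Vale.Agent.P032.Words.H670.P11
import Vale.Agent.P032.Words.H670.P12
import Vale.Agent.P032.Words.H670.P13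
import Vale.Agent.P032.Words.H670.P14
import Vale.Agent.P032.Words.H670.P15
import Vale.Agent.P032.Words.H670.P16
import Vale.Agent.P032.Words.H670.P17
import Vale.Agent.P032.Words.H670.P18
import Vale.Agent.P032.Words.H670.P19
import Vale.Agent.P032.Words.H670.P20
import Vale.Agent.P032.Words.H670.P21
import Vale.Agent.P032.Words.H670.P22
import Vale.Agent.P032.Words.H670.P23
import Vale.Agent.P032.Words.H670.P24
import Vale.Agent.P032.Words.H670.P25
import Vale.Agent.P032.Words.H670.P26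
import Vale.Agent.P032.Words.H670.P27
import Vale.Agent.P032.Words.H670.P28
import Vale.Agent.P032.Words.H670.P29
import Vale.Agent.P032.Words.H670.P30
import Vale.Agent.P032.Words.H670.P31
import Vale.Agent.P032.Words.H670.P32
import Vale.Agent.P032.Words.H670.P33
import Vale.Agent.P032.Words6.H358.TreeD

/-!
# P032: the ten trees of modes over the box tables, the prism
-/

namespace Vale.Agent.P032.Words6.H358

open Vale.Agent.P032.Words.Trie Vale.Agent.P032.Words6.H46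

theorem leaf1 : LeafOK [3, 5, 9, 6, 18, 36, 24, 40, 48]
    [(7, 0), (11, 0), (26, 0)] :=
  ⟨C35_1.D, C35_1.tab, by decide +kernel, by decide +kernel, rfl⟩

theorem leaf2 : LeafOK [3, 5, 9, 6, 18, 36, 24, 40, 48]
    [(7, 0), (11, 0), (26, 1)] :=
  ⟨C35_2.D, C35_2.tab, by decide +kernel, by decide +kernel, rfl⟩

theorem leaf3 : LeafOK [3, 5, 9, 6, 18, 36, 24, 40, 48]
    [(7, 0), (11, 0), (26, 2)] :=
  ⟨C35_3.D, C35_3.tab, by decide +kernel, by decide +kernel, rfl⟩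

theorem leaf4 : LeafOK [3, 5, 9, 6, 18, 36, 24, 40, 48]
    [(7, 0), (11, 1), (22, 0)] :=
  ⟨C35_4.D, C35_4.tab, by decide +kernel, by decide +kernel, rfl⟩

theorem leaf5 : LeafOK [3, 5, 9, 6, 18, 36, 24, 40, 48]
    [(7, 0), (11, 1), (22, 1), (26, 0), (13, 0), (19, 0)] :=
  ⟨C35_5.D, C35_5.tab, by decide +kernel, by decide +kernel, rfl⟩

theorem leaf6 : LeafOK [3, 5, 9, 6, 18, 36, 24, 40, 48]
    [(7, 0), (11, 1), (22, 1), (26, 0), (13, 0), (19, 1)] :=
  ⟨C35_6.D, C35_6.tab, by decide +kernel, by decide +kernel, rfl⟩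

theorem leaf7 : LeafOK [3, 5, 9, 6, 18, 36, 24, 40, 48]
    [(7, 0), (11, 1), (22, 1), (26, 0), (13, 0), (19, 2)] :=
  ⟨C35_7.D, C35_7.tab, by decide +kernel, by decide +kernel, rfl⟩

theorem leaf8 : LeafOK [3, 5, 9, 6, 18, 36, 24, 40, 48]
    [(7, 0), (11, 1), (22, 1), (26, 0), (13, 1), (25, 0)] :=
  ⟨C35_8.D, C35_8.tab, by decide +kernel, by decide +kernel, rfl⟩

theorem leaf9 : LeafOK [3, 5, 9, 6, 18, 36, 24, 40, 48]
    [(7, 0), (11, 1), (22, 1), (26, 0), (13, 1), (25, 1)] :=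
  ⟨C35_9.D, C35_9.tab, by decide +kernel, by decide +kernel, rfl⟩

theorem leaf10 : LeafOK [3, 5, 9, 6, 18, 36, 24, 40, 48]
    [(7, 0), (11, 1), (22, 1), (26, 0), (13, 1), (25, 2)] :=
  ⟨C35_10.D, C35_10.tab, by decide +kernel, by decide +kernel, rfl⟩

theorem leaf11 : LeafOK [3, 5, 9, 6, 18, 36, 24, 40, 48]
    [(7, 0), (11, 1), (22, 1), (26, 0), (13, 2)] :=
  ⟨C35_11.D, C35_11.tab, by decide +kernel, by decide +kernel, rfl⟩

theorem leaf12 : LeafOK [3, 5, 9, 6, 18, 36, 24, 40, 48]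
    [(7, 0), (11, 1), (22, 1), (26, 1)] :=
  ⟨C35_12.D, C35_12.tab, by decide +kernel, by decide +kernel, rfl⟩

theorem leaf13 : LeafOK [3, 5, 9, 6, 18, 36, 24, 40, 48]
    [(7, 0), (11, 1), (22, 1), (26, 2)] :=
  ⟨C35_13.D, C35_13.tab, by decide +kernel, by decide +kernel, rfl⟩

theorem leaf14 : LeafOK [3, 5, 9, 6, 18, 36, 24, 40, 48]
    [(7, 0), (11, 1), (22, 2)] :=
  ⟨C35_14.D, C35_14.tab, by decide +kernel, by decide +kernel, rfl⟩

theorem leaf15 : LeafOK [3, 5, 9, 6, 18, 36, 24, 40, 48]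
    [(7, 0), (11, 2)] :=
  ⟨C35_15.D, C35_15.tab, by decide +kernel, by decide +kernel, rfl⟩

theorem leaf16 : LeafOK [3, 5, 9, 6, 18, 36, 24, 40, 48]
    [(7, 1), (11, 0), (26, 0)] :=
  ⟨C35_16.D, C35_16.tab, by decide +kernel, by decide +kernel, rfl⟩

theorem leaf17 : LeafOK [3, 5, 9, 6, 18, 36, 24, 40, 48]
    [(7, 1), (11, 0), (26, 1), (22, 0), (13, 0), (19, 0)] :=
  ⟨C35_17.D, C35_17.tab, by decide +kernel, by decide +kernel, rfl⟩

theorem leaf18 : LeafOK [3, 5, 9, 6, 18, 36, 24, 40, 48]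
    [(7, 1), (11, 0), (26, 1), (22, 0), (13, 0), (19, 1)] :=
  ⟨C35_18.D, C35_18.tab, by decide +kernel, by decide +kernel, rfl⟩

theorem leaf19 : LeafOK [3, 5, 9, 6, 18, 36, 24, 40, 48]
    [(7, 1), (11, 0), (26, 1), (22, 0), (13, 0), (19, 2)] :=
  ⟨C35_19.D, C35_19.tab, by decide +kernel, by decide +kernel, rfl⟩

theorem leaf20 : LeafOK [3, 5, 9, 6, 18, 36, 24, 40, 48]
    [(7, 1), (11, 0), (26, 1), (22, 0), (13, 1), (25, 0)] :=
  ⟨C35_20.D, C35_20.tab, by decide +kernel, by decide +kernel, rfl⟩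

theorem leaf21 : LeafOK [3, 5, 9, 6, 18, 36, 24, 40, 48]
    [(7, 1), (11, 0), (26, 1), (22, 0), (13, 1), (25, 1)] :=
  ⟨C35_21.D, C35_21.tab, by decide +kernel, by decide +kernel, rfl⟩

theorem leaf22 : LeafOK [3, 5, 9, 6, 18, 36, 24, 40, 48]
    [(7, 1), (11, 0), (26, 1), (22, 0), (13, 1), (25, 2)] :=
  ⟨C35_22.D, C35_22.tab, by decide +kernel, by decide +kernel, rfl⟩

theorem leaf23 : LeafOK [3, 5, 9, 6, 18, 36, 24, 40, 48]
    [(7, 1), (11, 0), (26, 1), (22, 0), (13, 2)] :=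
  ⟨C35_23.D, C35_23.tab, by decide +kernel, by decide +kernel, rfl⟩

theorem leaf24 : LeafOK [3, 5, 9, 6, 18, 36, 24, 40, 48]
    [(7, 1), (11, 0), (26, 1), (22, 1)] :=
  ⟨C35_24.D, C35_24.tab, by decide +kernel, by decide +kernel, rfl⟩

theorem leaf25 : LeafOK [3, 5, 9, 6, 18, 36, 24, 40, 48]
    [(7, 1), (11, 0), (26, 1), (22, 2)] :=
  ⟨C35_25.D, C35_25.tab, by decide +kernel, by decide +kernel, rfl⟩

theorem leaf26 : LeafOK [3, 5, 9, 6, 18, 36, 24, 40, 48]
    [(7, 1), (11, 0), (26, 2)] :=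
  ⟨C35_26.D, C35_26.tab, by decide +kernel, by decide +kernel, rfl⟩

theorem leaf27 : LeafOK [3, 5, 9, 6, 18, 36, 24, 40, 48]
    [(7, 1), (11, 1), (22, 0)] :=
  ⟨C35_27.D, C35_27.tab, by decide +kernel, by decide +kernel, rfl⟩

theorem leaf28 : LeafOK [3, 5, 9, 6, 18, 36, 24, 40, 48]
    [(7, 1), (11, 1), (22, 1)] :=
  ⟨C35_28.D, C35_28.tab, by decide +kernel, by decide +kernel, rfl⟩

theorem leaf29 : LeafOK [3, 5, 9, 6, 18, 36, 24, 40, 48]
    [(7, 1), (11, 1), (22, 2)] :=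
  ⟨C35_29.D, C35_29.tab, by decide +kernel, by decide +kernel, rfl⟩

theorem leaf30 : LeafOK [3, 5, 9, 6, 18, 36, 24, 40, 48]
    [(7, 1), (11, 2)] :=
  ⟨C35_30.D, C35_30.tab, by decide +kernel, by decide +kernel, rfl⟩

theorem leaf31 : LeafOK [3, 5, 9, 6, 18, 36, 24, 40, 48]
    [(7, 2), (11, 0)] :=
  ⟨C35_31.D, C35_31.tab, by decide +kernel, by decide +kernel, rfl⟩

theorem leaf32 : LeafOK [3, 5, 9, 6, 18, 36, 24, 40, 48]
    [(7, 2), (11, 1)] :=
  ⟨C35_32.D, C35_32.tab, by decide +kernel, by decide +kernel, rfl⟩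

theorem leaf33 : LeafOK [3, 5, 9, 6, 18, 36, 24, 40, 48]
    [(7, 2), (11, 2)] :=
  ⟨C35_33.D, C35_33.tab, by decide +kernel, by decide +kernel, rfl⟩

theorem tree35 : TreeOK [3, 5, 9, 6, 18, 36, 24, 40, 48] := by
  refine treeOK_35 ?_
  intro l hl
  simp only [leaves35, List.mem_cons, List.not_mem_nil, or_false] at hl
  rcases hl with rfl | rfl | rfl | rfl | rfl | rfl | rfl | rfl | rfl | rfl | rfl | rfl | rfl | rfl |
    rfl | rfl | rfl | rfl | rfl | rfl | rfl | rfl | rfl | rfl | rfl | rfl | rfl | rfl | rfl | rfl | rfl | rfl | rfl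
  · exact leaf1
  · exact leaf2
  · exact leaf3
  · exact leaf4
  · exact leaf5
  · exact leaf6
  · exact leaf7
  · exact leaf8
  · exact leaf9
  · exact leaf10
  · exact leaf11
  · exact leaf12
  · exact leaf13
  · exact leaf14
  · exact leaf15
  · exact leaf16
  · exact leaf17
  · exact leaf18
  · exact leaf19
  · exact leaf20
  · exact leaf21
  · exact leaf22
  · exact leaf23
  · exact leaf24
  · exact leaf25
  · exact leaf26
  · exact leaf27
  · exact leaf28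
  · exact leaf29
  · exact leaf30
  · exact leaf31
  · exact leaf32
  · exact leaf33

end Vale.Agent.P032.Words6.H358
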